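import Vale.Agent.P213.Basic.OCat
import Mathlib.CategoryTheory.Limits.FullSubcategory
import Mathlib.CategoryTheory.Adjunction.Basic
import Mathlib.CategoryTheory.Limits.HasLimits

/-!
# Colimits of strict ω-categories

The colimit of a small diagram consists of formal composites of its cells, identified when every
cocone (with vertex in a given class `P`) gives them the same value.  For `P` everything this is
the colimit; for `P` the `n`-categories and a one object diagram it is the reflection.
-/

noncomputable section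

open CategoryTheory CategoryTheory.Limits

namespace Vale.Agent.P213

namespace OCat

variable {X : OCat}

lemma src_eq_self_mono {a : X.Cell} {k m : ℕ} (h : X.src k a = a) (hkm : k ≤ m) :
    X.src m a = a := by
  conv_lhs => rw [← h]
  rw [X.src_src, min_eq_right hkm, h]

lemma tgt_eq_self_of_src {a : X.Cell} {k : ℕ} (h : X.src k a = a) : X.tgt k a = a := by
  conv_lhs => rw [← h]
  rw [X.tgt_src_ge k k a le_rfl, h]

lemma comp_heq {i : ℕ} {a a' b b' : X.Cell} (ha : a = a') (hb : b = b')
    (h : X.src i a = X.tgt i b) (h' : X.src i a' = X.tgt i b') :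
    X.comp i a b h = X.comp i a' b' h' := by
  subst ha hb
  rfl

end OCat

namespace Colim

variable {J : Type} [SmallCategory J] (F : J ⥤ OCat) (P : ObjectProperty OCat)

/-- Formal composites of cells of a diagram. -/
inductive Tm : Type
  | gen : (j : J) → (F.obj j).Cell → Tm
  | comp : ℕ → Tm → Tm → Tm

variable {F}

open Classical in
/-- The value of a formal composite in a cocone, when it is defined. -/
def eval (s : Cocone F) : Tm F → Option s.pt.Cell
  | .gen j a => some ((s.ι.app j).map a)
  | .comp i t u => (eval s t).bind fun x => (eval s u).bind fun y =>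
      if h : s.pt.src i x = s.pt.tgt i y then some (s.pt.comp i x y h) else none

lemma eval_gen (s : Cocone F) (j : J) (a : (F.obj j).Cell) :
    eval s (.gen j a) = some ((s.ι.app j).map a) := rfl

lemma eval_comp_iff {s : Cocone F} {i : ℕ} {t u : Tm F} {z : s.pt.Cell} :
    eval s (.comp i t u) = some z ↔
      ∃ x y h, eval s t = some x ∧ eval s u = some y ∧ s.pt.comp i x y h = z := by
  classical
  simp only [eval, Option.bind_eq_some_iff]
  constructor
  · rintro ⟨x, hx, y, hy, he⟩
    split_ifs at he with h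
    exact ⟨x, y, h, hx, hy, Option.some.inj he⟩
  · rintro ⟨x, y, h, hx, hy, rfl⟩
    exact ⟨x, hx, y, hy, by rw [dif_pos h]⟩

/-- The `k`-source of a formal composite. -/
def srcT (k : ℕ) : Tm F → Tm F
  | .gen j a => .gen j ((F.obj j).src k a)
  | .comp i t u => if k ≤ i then srcT k u else .comp i (srcT k t) (srcT k u)

/-- The `k`-target of a formal composite. -/
def tgtT (k : ℕ) : Tm F → Tm F
  | .gen j a => .gen j ((F.obj j).tgt k a)
  | .comp i t u => if k ≤ i then tgtT k t else .comp i (tgtT k t) (tgtT k u)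

lemma eval_srcT {s : Cocone F} (k : ℕ) {t : Tm F} : ∀ {x : s.pt.Cell},
    eval s t = some x → eval s (srcT k t) = some (s.pt.src k x) := by
  induction t with
  | gen j a =>
    intro x hx
    rw [eval_gen] at hx
    rw [srcT, eval_gen, (s.ι.app j).map_src, Option.some.inj hx]
    rfl
  | comp i t u iht ihu =>
    intro z hz
    obtain ⟨x, y, h, hx, hy, rfl⟩ := eval_comp_iff.1 hz
    simp only [srcT]
    split_ifs with hk
    · rw [ihu hy, s.pt.src_comp_le i k x y h hk]
    · have hk' : i < k := Nat.lt_of_not_le hk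
      have h' : s.pt.src i (s.pt.src k x) = s.pt.tgt i (s.pt.src k y) := by
        rw [s.pt.src_src, min_eq_left hk'.le, s.pt.tgt_src_lt i k y hk', h]
      exact eval_comp_iff.2
        ⟨_, _, h', iht hx, ihu hy, (s.pt.src_comp_gt i k x y h h' hk').symm⟩

lemma eval_tgtT {s : Cocone F} (k : ℕ) {t : Tm F} : ∀ {x : s.pt.Cell},
    eval s t = some x → eval s (tgtT k t) = some (s.pt.tgt k x) := by
  induction t with
  | gen j a =>
    intro x hx
    rw [eval_gen] at hx
    rw [tgtT, eval_gen, (s.ι.app j).map_tgt, Option.some.inj hx]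
    rfl
  | comp i t u iht ihu =>
    intro z hz
    obtain ⟨x, y, h, hx, hy, rfl⟩ := eval_comp_iff.1 hz
    simp only [tgtT]
    split_ifs with hk
    · rw [iht hx, s.pt.tgt_comp_le i k x y h hk]
    · have hk' : i < k := Nat.lt_of_not_le hk
      have h' : s.pt.src i (s.pt.tgt k x) = s.pt.tgt i (s.pt.tgt k y) := by
        rw [s.pt.src_tgt_lt i k x hk', s.pt.tgt_tgt, min_eq_left hk'.le, h]
      exact eval_comp_iff.2
        ⟨_, _, h', iht hx, ihu hy, (s.pt.tgt_comp_gt i k x y h h' hk').symm⟩

lemma eval_dim (t : Tm F) :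
    ∃ k, ∀ (s : Cocone F) (x : s.pt.Cell), eval s t = some x → s.pt.src k x = x := by
  induction t with
  | gen j a =>
    obtain ⟨k, hk⟩ := (F.obj j).exists_dim a
    refine ⟨k, fun s x hx => ?_⟩
    rw [eval_gen] at hx
    rw [← Option.some.inj hx]
    exact ((s.ι.app j).map_src k a).symm.trans (by rw [hk])
  | comp i t u iht ihu =>
    obtain ⟨k₁, h₁⟩ := iht
    obtain ⟨k₂, h₂⟩ := ihu
    refine ⟨max (max k₁ k₂) (i + 1), fun s z hz => ?_⟩
    obtain ⟨x, y, h, hx, hy, rfl⟩ := eval_comp_iff.1 hz
    have e₁ := OCat.src_eq_self_mono (h₁ s x hx)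
      ((le_max_left k₁ k₂).trans (le_max_left _ (i + 1)))
    have e₂ := OCat.src_eq_self_mono (h₂ s y hy)
      ((le_max_right k₁ k₂).trans (le_max_left _ (i + 1)))
    rw [s.pt.src_comp_gt i _ x y h (by rw [e₁, e₂]; exact h)
      (lt_of_lt_of_le (Nat.lt_succ_self i) (le_max_right _ _))]
    exact OCat.comp_heq e₁ e₂ _ h

variable (F)

/-- Composites defined in every cocone. -/
def Valid (t : Tm F) : Prop := ∀ s : Cocone F, P s.pt → ∃ x, eval s t = some x

/-- Composites with the same values in every cocone. -/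
def setoid : Setoid {t : Tm F // Valid F P t} where
  r t u := ∀ s : Cocone F, P s.pt → eval s t.1 = eval s u.1
  iseqv :=
    { refl := fun _ _ _ => rfl
      symm := fun h s hs => (h s hs).symm
      trans := fun h h' s hs => (h s hs).trans (h' s hs) }

/-- The cells of the colimit. -/
abbrev QCell : Type := Quotient (setoid F P)

variable {F P}

/-- The class of a composite defined in every cocone. -/
def mk (t : Tm F) (ht : Valid F P t) : QCell F P := Quotient.mk (setoid F P) ⟨t, ht⟩

/-- The value of a cell in a cocone. -/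
def ev (s : Cocone F) (hs : P s.pt) : QCell F P → s.pt.Cell :=
  Quotient.lift (fun t => Classical.choose (t.2 s hs)) fun t u h =>
    Option.some.inj ((Classical.choose_spec (t.2 s hs)).symm.trans
      ((h s hs).trans (Classical.choose_spec (u.2 s hs))))

lemma eval_mk {t : Tm F} (ht : Valid F P t) (s : Cocone F) (hs : P s.pt) :
    eval s t = some (ev s hs (mk t ht)) :=
  Classical.choose_spec (ht s hs)

lemma ev_mk {t : Tm F} (ht : Valid F P t) (s : Cocone F) (hs : P s.pt) {x : s.pt.Cell}
    (h : eval s t = some x) : ev s hs (mk t ht) = x :=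
  Option.some.inj ((eval_mk ht s hs).symm.trans h)

lemma eval_out (q : QCell F P) (s : Cocone F) (hs : P s.pt) :
    eval s q.out.1 = some (ev s hs q) := by
  have h : mk q.out.1 q.out.2 = q := Quotient.out_eq q
  rw [eval_mk q.out.2 s hs, h]

lemma qext {q q' : QCell F P} (h : ∀ s hs, ev s hs q = ev s hs q') : q = q' := by
  rw [← Quotient.out_eq q, ← Quotient.out_eq q']
  refine Quotient.sound fun s hs => ?_
  rw [eval_out q s hs, eval_out q' s hs, h]

/-- The `k`-source of a cell. -/
def qsrc (k : ℕ) (q : QCell F P) : QCell F P :=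
  mk (srcT k q.out.1) fun s hs => ⟨_, eval_srcT k (eval_out q s hs)⟩

lemma ev_qsrc (k : ℕ) (q : QCell F P) (s : Cocone F) (hs : P s.pt) :
    ev s hs (qsrc k q) = s.pt.src k (ev s hs q) :=
  ev_mk _ s hs (eval_srcT k (eval_out q s hs))

/-- The `k`-target of a cell. -/
def qtgt (k : ℕ) (q : QCell F P) : QCell F P :=
  mk (tgtT k q.out.1) fun s hs => ⟨_, eval_tgtT k (eval_out q s hs)⟩

lemma ev_qtgt (k : ℕ) (q : QCell F P) (s : Cocone F) (hs : P s.pt) :
    ev s hs (qtgt k q) = s.pt.tgt k (ev s hs q) :=
  ev_mk _ s hs (eval_tgtT k (eval_out q s hs))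

lemma ev_composable {i : ℕ} {a b : QCell F P} (h : qsrc i a = qtgt i b) (s : Cocone F)
    (hs : P s.pt) : s.pt.src i (ev s hs a) = s.pt.tgt i (ev s hs b) := by
  rw [← ev_qsrc, ← ev_qtgt, h]

/-- Composition of cells. -/
def qcomp (i : ℕ) (a b : QCell F P) (h : qsrc i a = qtgt i b) : QCell F P :=
  mk (.comp i a.out.1 b.out.1) fun s hs =>
    ⟨_, eval_comp_iff.2 ⟨_, _, ev_composable h s hs, eval_out a s hs, eval_out b s hs, rfl⟩⟩

lemma ev_qcomp (i : ℕ) (a b : QCell F P) (h : qsrc i a = qtgt i b) (s : Cocone F)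
    (hs : P s.pt) :
    ev s hs (qcomp i a b h) = s.pt.comp i (ev s hs a) (ev s hs b) (ev_composable h s hs) :=
  ev_mk _ s hs (eval_comp_iff.2 ⟨_, _, _, eval_out a s hs, eval_out b s hs, rfl⟩)

variable (F P)

/-- The universal ω-category under the diagram. -/
def Q : OCat where
  Cell := QCell F P
  src := qsrc
  tgt := qtgt
  comp := qcomp
  src_src i j a := qext fun s hs => by simp only [ev_qsrc, s.pt.src_src]
  tgt_tgt i j a := qext fun s hs => by simp only [ev_qtgt, s.pt.tgt_tgt]
  src_tgt_lt i j a h := qext fun s hs => by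
    simp only [ev_qsrc, ev_qtgt, s.pt.src_tgt_lt i j _ h]
  src_tgt_ge i j a h := qext fun s hs => by
    simp only [ev_qsrc, ev_qtgt, s.pt.src_tgt_ge i j _ h]
  tgt_src_lt i j a h := qext fun s hs => by
    simp only [ev_qsrc, ev_qtgt, s.pt.tgt_src_lt i j _ h]
  tgt_src_ge i j a h := qext fun s hs => by
    simp only [ev_qsrc, ev_qtgt, s.pt.tgt_src_ge i j _ h]
  exists_dim a := by
    obtain ⟨k, hk⟩ := eval_dim a.out.1
    exact ⟨k, qext fun s hs => (ev_qsrc k a s hs).trans (hk s _ (eval_out a s hs))⟩
  comp_unit_right i a h := qext fun s hs => by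
    rw [ev_qcomp]
    exact (OCat.comp_heq rfl (ev_qsrc i a s hs) _
      (s.pt.tgt_src_ge i i _ le_rfl).symm).trans (s.pt.comp_unit_right i _ _)
  comp_unit_left i a h := qext fun s hs => by
    rw [ev_qcomp]
    exact (OCat.comp_heq (ev_qtgt i a s hs) rfl _
      (s.pt.src_tgt_ge i i _ le_rfl)).trans (s.pt.comp_unit_left i _ _)
  src_comp_le i j a b h hj := qext fun s hs => by
    rw [ev_qsrc, ev_qcomp, ev_qsrc, s.pt.src_comp_le i j _ _ _ hj]
  tgt_comp_le i j a b h hj := qext fun s hs => by
    rw [ev_qtgt, ev_qcomp, ev_qtgt, s.pt.tgt_comp_le i j _ _ _ hj]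
  src_comp_gt i j a b h h' hj := qext fun s hs => by
    rw [ev_qsrc, ev_qcomp, ev_qcomp, s.pt.src_comp_gt i j _ _ _
      (by rw [← ev_qsrc, ← ev_qsrc j b, ← ev_qsrc, ← ev_qtgt, h']) hj]
    exact OCat.comp_heq (ev_qsrc j a s hs).symm (ev_qsrc j b s hs).symm _ _
  tgt_comp_gt i j a b h h' hj := qext fun s hs => by
    rw [ev_qtgt, ev_qcomp, ev_qcomp, s.pt.tgt_comp_gt i j _ _ _
      (by rw [← ev_qtgt, ← ev_qtgt j b, ← ev_qsrc, ← ev_qtgt, h']) hj]
    exact OCat.comp_heq (ev_qtgt j a s hs).symm (ev_qtgt j b s hs).symm _ _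
  assoc i a b c h₁ h₂ h₃ h₄ := qext fun s hs => by
    have e₁ := ev_qcomp i a b h₁ s hs
    have e₂ := ev_qcomp i b c h₃ s hs
    have k₂ := ev_composable h₂ s hs
    have k₄ := ev_composable h₄ s hs
    rw [e₁] at k₂
    rw [e₂] at k₄
    exact (ev_qcomp i _ c h₂ s hs).trans ((OCat.comp_heq e₁ rfl _ k₂).trans
      ((s.pt.assoc i _ _ _ _ k₂ (ev_composable h₃ s hs) k₄).trans
        ((OCat.comp_heq rfl e₂.symm _ _).trans (ev_qcomp i a _ h₄ s hs).symm)))
  interchange i j a b c d h₁ h₂ h₃ h₄ h₅ h₆ hij := qext fun s hs => by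
    have e₁ := ev_qcomp j a b h₁ s hs
    have e₂ := ev_qcomp j c d h₂ s hs
    have e₃ := ev_qcomp i a c h₄ s hs
    have e₄ := ev_qcomp i b d h₅ s hs
    have k₃ := ev_composable h₃ s hs
    have k₆ := ev_composable h₆ s hs
    rw [e₁, e₂] at k₃
    rw [e₃, e₄] at k₆
    exact (ev_qcomp i _ _ h₃ s hs).trans ((OCat.comp_heq e₁ e₂ _ k₃).trans
      ((s.pt.interchange i j _ _ _ _ _ _ k₃ (ev_composable h₄ s hs) (ev_composable h₅ s hs)
        k₆ hij).trans ((OCat.comp_heq e₃.symm e₄.symm _ _).trans
          (ev_qcomp j _ _ h₆ s hs).symm)))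

variable {F P}

/-- The class of a cell of the diagram. -/
def inGen (j : J) (a : (F.obj j).Cell) : (Q F P).Cell :=
  mk (.gen j a) fun s _ => ⟨_, eval_gen s j a⟩

lemma ev_inGen (j : J) (a : (F.obj j).Cell) (s : Cocone F) (hs : P s.pt) :
    ev s hs (inGen j a) = (s.ι.app j).map a :=
  ev_mk _ s hs (eval_gen s j a)

variable (F P)

/-- The cocone on the universal ω-category. -/
def cocone : Cocone F where
  pt := Q F P
  ι :=
    { app := fun j =>
        { map := inGen j
          map_src := fun i a => qext fun s hs =>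
            (ev_inGen j _ s hs).trans (((s.ι.app j).map_src i a).trans
              ((congrArg _ (ev_inGen j a s hs).symm).trans (ev_qsrc i (inGen j a) s hs).symm))
          map_tgt := fun i a => qext fun s hs =>
            (ev_inGen j _ s hs).trans (((s.ι.app j).map_tgt i a).trans
              ((congrArg _ (ev_inGen j a s hs).symm).trans (ev_qtgt i (inGen j a) s hs).symm))
          map_comp := fun i a b h h' => qext fun s hs =>
            (ev_inGen j _ s hs).trans
              (((s.ι.app j).map_comp i a b h ((s.ι.app j).composable h)).trans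
                ((OCat.comp_heq (ev_inGen j a s hs).symm (ev_inGen j b s hs).symm _ _).trans
                  (ev_qcomp i (inGen j a) (inGen j b) h' s hs).symm)) }
      naturality := fun j k f => OCat.hom_ext fun a => qext fun s hs =>
        (ev_inGen k _ s hs).trans
          ((congrArg (fun g : F.obj j ⟶ s.pt => g.map a) (s.w f)).trans
            (ev_inGen j a s hs).symm) }

variable {F P}

/-- The map to a cocone with vertex in `P`. -/
def desc (s : Cocone F) (hs : P s.pt) : Q F P ⟶ s.pt where
  map := ev s hs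
  map_src i a := ev_qsrc i a s hs
  map_tgt i a := ev_qtgt i a s hs
  map_comp i a b h _ := ev_qcomp i a b h s hs

lemma fac (s : Cocone F) (hs : P s.pt) (j : J) :
    (cocone F P).ι.app j ≫ desc s hs = s.ι.app j :=
  OCat.hom_ext fun a => ev_inGen j a s hs

/-- Cells of the colimit are built from the cells of the diagram by composition. -/
lemma induction {S : (Q F P).Cell → Prop}
    (hgen : ∀ j a, S (((cocone F P).ι.app j).map a))
    (hcomp : ∀ i a b h, S a → S b → S ((Q F P).comp i a b h)) : ∀ q, S q := by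
  suffices h : ∀ (t : Tm F) (ht : Valid F P t), S (mk t ht) by
    intro q
    have := h q.out.1 q.out.2
    rwa [show mk q.out.1 q.out.2 = q from Quotient.out_eq q] at this
  intro t
  induction t with
  | gen j a => exact fun _ => hgen j a
  | comp i t u iht ihu =>
    intro ht
    have h1 : Valid F P t := fun s hs => by
      obtain ⟨z, hz⟩ := ht s hs
      obtain ⟨x, y, h, hx, -, -⟩ := eval_comp_iff.1 hz
      exact ⟨x, hx⟩
    have h2 : Valid F P u := fun s hs => by
      obtain ⟨z, hz⟩ := ht s hs
      obtain ⟨x, y, h, -, hy, -⟩ := eval_comp_iff.1 hz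
      exact ⟨y, hy⟩
    have h3 : qsrc i (mk t h1) = qtgt i (mk u h2) := qext fun s hs => by
      obtain ⟨z, hz⟩ := ht s hs
      obtain ⟨x, y, h, hx, hy, -⟩ := eval_comp_iff.1 hz
      rw [ev_qsrc, ev_qtgt, ev_mk h1 s hs hx, ev_mk h2 s hs hy, h]
    have h4 : qcomp i (mk t h1) (mk u h2) h3 = mk (.comp i t u) ht := qext fun s hs => by
      rw [ev_qcomp]
      exact (ev_mk ht s hs
        (eval_comp_iff.2 ⟨_, _, _, eval_mk h1 s hs, eval_mk h2 s hs, rfl⟩)).symm
    rw [← h4]
    exact hcomp i _ _ h3 (iht h1) (ihu h2)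

lemma uniq (s : Cocone F) (hs : P s.pt) (f : Q F P ⟶ s.pt)
    (hf : ∀ j, (cocone F P).ι.app j ≫ f = s.ι.app j) : f = desc s hs := by
  refine OCat.hom_ext (induction (S := fun q => f.map q = (desc s hs).map q) ?_ ?_)
  · intro j a
    exact (congrArg (fun g : F.obj j ⟶ s.pt => g.map a) (hf j)).trans (ev_inGen j a s hs).symm
  · intro i a b h ha hb
    rw [f.map_comp i a b h (f.composable h),
      (desc s hs).map_comp i a b h ((desc s hs).composable h)]
    exact OCat.comp_heq ha hb _ _

/-- The universal ω-category is in `DimLE n` if all the test vertices are. -/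
lemma dimLE {n : ℕ∞} (hP : P ≤ OCat.DimLE n) : OCat.DimLE n (Q F P) := fun k a hk =>
  qext fun s hs => (ev_qsrc k a s hs).trans (hP _ hs k _ hk)

/-- The universal cocone is a colimit. -/
def isColimit : IsColimit (cocone F ⊤) where
  desc s := desc s trivial
  fac s j := fac s trivial j
  uniq s f hf := uniq s trivial f hf

instance hasColimits : HasColimits OCat where
  has_colimits_of_shape _ := ⟨fun F => ⟨⟨⟨cocone F ⊤, isColimit⟩⟩⟩⟩

/-- Every cell of a colimit is built from the cells of the diagram by composition. -/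
theorem induction_of_isColimit {c : Cocone F} (hc : IsColimit c) {S : c.pt.Cell → Prop}
    (hgen : ∀ j a, S ((c.ι.app j).map a))
    (hcomp : ∀ i a b h, S a → S b → S (c.pt.comp i a b h)) : ∀ q, S q := by
  set e := (isColimit (F := F)).coconePointUniqueUpToIso hc with he
  have hfac : ∀ j a, e.hom.map (((cocone F ⊤).ι.app j).map a) = (c.ι.app j).map a := fun j a =>
    congrArg (fun g : F.obj j ⟶ c.pt => g.map a)
      ((isColimit (F := F)).comp_coconePointUniqueUpToIso_hom hc j)
  have hall : ∀ q, S (e.hom.map q) := by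
    refine induction ?_ ?_
    · intro j a
      rw [hfac]
      exact hgen j a
    · intro i a b h ha hb
      rw [show e.hom.map ((Q F ⊤).comp i a b h) = _ from
        e.hom.map_comp i a b h (e.hom.composable h)]
      exact hcomp i _ _ _ ha hb
  intro q
  have : e.hom.map (e.inv.map q) = q :=
    congrArg (fun g : c.pt ⟶ c.pt => g.map q) e.inv_hom_id
  rw [← this]
  exact hall _

end Colim

instance dimLE_closedUnderColimits (n : ℕ∞) {J : Type} [SmallCategory J] :
    (OCat.DimLE n).IsClosedUnderColimitsOfShape J where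
  colimitsOfShape_le := by
    rintro X ⟨p⟩ k a hk
    refine Colim.induction_of_isColimit p.isColimit (S := fun a => X.src k a = a) ?_ ?_ a
    · intro j b
      exact ((p.ι.app j).map_src k b).symm.trans
        (congrArg (p.ι.app j).map (p.prop_diag_obj j k b hk))
    · intro i a b h ha hb
      by_cases hik : k ≤ i
      · have ha' : X.src i a = a := OCat.src_eq_self_mono ha hik
        have hb' : X.tgt i b = b :=
          OCat.tgt_eq_self_of_src (OCat.src_eq_self_mono hb hik)
        have hab : a = b := ha'.symm.trans (h.trans hb')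
        rw [X.src_comp_le i k a b h hik, hb]
        symm
        subst hab
        exact (OCat.comp_heq rfl ha'.symm h (X.tgt_src_ge i i a le_rfl).symm).trans
          (X.comp_unit_right i a _)
      · have hik' : i < k := Nat.lt_of_not_le hik
        rw [X.src_comp_gt i k a b h (by rw [ha, hb]; exact h) hik']
        exact OCat.comp_heq ha hb _ h

namespace NCat

instance hasColimits (n : ℕ∞) : HasColimits (NCat n) where
  has_colimits_of_shape _ := inferInstance

instance incl_preservesColimits (n : ℕ∞) (J : Type) [SmallCategory J] :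
    PreservesColimitsOfShape J (NCat.incl n) :=
  inferInstance

/-- The universal `n`-category under an ω-category. -/
def reflObj (n : ℕ∞) (X : OCat) : NCat n :=
  ⟨Colim.Q ((Functor.const (Discrete PUnit.{1})).obj X) (OCat.DimLE n), Colim.dimLE le_rfl⟩

/-- Maps out of the universal `n`-category. -/
def reflEquiv (n : ℕ∞) (X : OCat) (Y : NCat n) :
    (reflObj n X ⟶ Y) ≃ (X ⟶ (NCat.incl n).obj Y) where
  toFun f := (Colim.cocone ((Functor.const (Discrete PUnit.{1})).obj X)
    (OCat.DimLE n)).ι.app ⟨PUnit.unit⟩ ≫ f.hom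
  invFun g := ObjectProperty.homMk (Colim.desc
    { pt := Y.obj
      ι := (Functor.const (Discrete PUnit.{1})).map g } Y.property)
  left_inv f := by
    ext1
    exact (Colim.uniq { pt := Y.obj, ι := (Functor.const (Discrete PUnit.{1})).map _ }
      Y.property f.hom fun _ => rfl).symm
  right_inv g := Colim.fac { pt := Y.obj, ι := (Functor.const (Discrete PUnit.{1})).map g }
    Y.property ⟨PUnit.unit⟩

/-- The reflection of ω-categories into `n`-categories. -/
def refl (n : ℕ∞) : OCat ⥤ NCat n :=
  Adjunction.leftAdjointOfEquiv (reflEquiv n) fun _ _ _ g h =>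
    (Category.assoc _ h.hom g.hom).symm

/-- The reflection is left adjoint to the inclusion. -/
def reflAdj (n : ℕ∞) : refl n ⊣ NCat.incl n :=
  Adjunction.adjunctionOfEquivLeft _ _

instance incl_isRightAdjoint (n : ℕ∞) : (NCat.incl n).IsRightAdjoint :=
  (reflAdj n).isRightAdjoint

end NCat

/-- Every cell of a colimit of `n`-categories is built from the cells of the diagram by
composition. -/
theorem NCat.colimit_induction {n : ℕ∞} {J : Type} [SmallCategory J] {F : J ⥤ NCat n}
    {c : Cocone F} (hc : IsColimit c) {S : c.pt.obj.Cell → Prop}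
    (hgen : ∀ j a, S ((c.ι.app j).hom.map a))
    (hcomp : ∀ i a b h, S a → S b → S (c.pt.obj.comp i a b h)) : ∀ q, S q :=
  Colim.induction_of_isColimit (isColimitOfPreserves (NCat.incl n) hc) hgen hcomp

/-- Every cell of a colimit of ω-categories is built from the cells of the diagram by
composition. -/
theorem OCat.colimit_induction {J : Type} [SmallCategory J] {F : J ⥤ OCat}
    {c : Cocone F} (hc : IsColimit c) {S : c.pt.Cell → Prop}
    (hgen : ∀ j a, S ((c.ι.app j).map a))
    (hcomp : ∀ i a b h, S a → S b → S (c.pt.comp i a b h)) : ∀ q, S q :=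
  Colim.induction_of_isColimit hc hgen hcomp

end Vale.Agent.P213
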