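import Mathlib.CategoryTheory.ObjectProperty.ClosedUnderIsomorphisms
import Vale.Agent.P213.Basic.OCat

/-!
# Elementary lemmas on strict ω-categories
-/

open CategoryTheory

namespace Vale.Agent.P213.OCat

variable {X Y : OCat}

lemma comp_congr {i : ℕ} {a a' b b' : X.Cell} (ha : a = a') (hb : b = b')
    (h : X.src i a = X.tgt i b) :
    X.comp i a b h = X.comp i a' b' (ha ▸ hb ▸ h) := by
  subst ha; subst hb; rfl

lemma src_eq_of_le {k l : ℕ} {a : X.Cell} (h : X.src k a = a) (hkl : k ≤ l) :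
    X.src l a = a := by
  calc X.src l a = X.src l (X.src k a) := by rw [h]
    _ = X.src k a := by rw [X.src_src, min_eq_right hkl]
    _ = a := h

lemma tgt_eq_of_src_eq {k : ℕ} {a : X.Cell} (h : X.src k a = a) : X.tgt k a = a := by
  calc X.tgt k a = X.tgt k (X.src k a) := by rw [h]
    _ = X.src k a := X.tgt_src_ge k k a le_rfl
    _ = a := h

lemma src_src_self (i : ℕ) (a : X.Cell) : X.src i (X.src i a) = X.src i a := by
  rw [X.src_src, min_self]

lemma src_tgt_self (i : ℕ) (a : X.Cell) : X.src i (X.tgt i a) = X.tgt i a :=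
  X.src_tgt_ge i i a le_rfl

lemma src_comp_eq_self {i k : ℕ} {a b : X.Cell} {h : X.src i a = X.tgt i b} (hik : i < k)
    (ha : X.src k a = a) (hb : X.src k b = b) :
    X.src k (X.comp i a b h) = X.comp i a b h := by
  have h' : X.src i (X.src k a) = X.tgt i (X.src k b) := by rw [ha, hb]; exact h
  rw [X.src_comp_gt i k a b h h' hik]
  exact comp_congr ha hb _

lemma exists_common_dim (a b : X.Cell) (i : ℕ) :
    ∃ k, i < k ∧ X.src k a = a ∧ X.src k b = b := by
  obtain ⟨p, hp⟩ := X.exists_dim a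
  obtain ⟨q, hq⟩ := X.exists_dim b
  exact ⟨max (max p q) (i + 1), by omega, src_eq_of_le hp (by omega), src_eq_of_le hq (by omega)⟩

lemma map_dim (f : X ⟶ Y) {k : ℕ} {a : X.Cell} (h : X.src k a = a) :
    Y.src k (f.map a) = f.map a := by
  rw [← f.map_src, h]

/-- An isomorphism is bijective on cells. -/
lemma iso_inv_map_hom (e : X ≅ Y) (a : X.Cell) : e.inv.map (e.hom.map a) = a := by
  rw [← comp_map, e.hom_inv_id, id_map]

lemma iso_hom_map_inv (e : X ≅ Y) (a : Y.Cell) : e.hom.map (e.inv.map a) = a := by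
  rw [← comp_map, e.inv_hom_id, id_map]

instance (n : ℕ∞) : ObjectProperty.IsClosedUnderIsomorphisms (DimLE n) where
  of_iso {X Y} e hX k a hk := by
    rw [← iso_hom_map_inv e a, ← e.hom.map_src, hX k (e.inv.map a) hk]

lemma dimLE_top (X : OCat) : DimLE ⊤ X := fun k _ hk => by
  simp at hk

end Vale.Agent.P213.OCat
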