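import Mathlib.CategoryTheory.Limits.FullSubcategory
import Mathlib.CategoryTheory.Limits.Preserves.Filtered
import Vale.Agent.P213.Colim.Lemmas
import Vale.Agent.P213.Colim.Cocomplete

/-!
# Filtered colimits of strict ω-categories are computed on cells
-/

open CategoryTheory CategoryTheory.Limits

namespace Vale.Agent.P213

namespace OCat

variable {X : OCat}

lemma assoc_composable₂ {i : ℕ} {a b c : X.Cell} (h : X.src i a = X.tgt i b)
    (h' : X.src i b = X.tgt i c) : X.src i (X.comp i a b h) = X.tgt i c := by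
  rw [X.src_comp_le i i a b h le_rfl]; exact h'

lemma assoc_composable₄ {i : ℕ} {a b c : X.Cell} (h : X.src i a = X.tgt i b)
    (h' : X.src i b = X.tgt i c) : X.src i a = X.tgt i (X.comp i b c h') := by
  rw [X.tgt_comp_le i i b c h' le_rfl]; exact h

lemma interchange_composable₃ {i j : ℕ} {a b c d : X.Cell} (h₁ : X.src j a = X.tgt j b)
    (h₂ : X.src j c = X.tgt j d) (h₅ : X.src i b = X.tgt i d) (hij : i < j) :
    X.src i (X.comp j a b h₁) = X.tgt i (X.comp j c d h₂) := by
  rw [X.src_comp_le j i a b h₁ hij.le, X.tgt_comp_le j i c d h₂ hij.le, h₅,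
    ← X.tgt_src_lt i j c hij, h₂, X.tgt_tgt, min_eq_left hij.le]

lemma interchange_composable₆ {i j : ℕ} {a b c d : X.Cell} (h₁ : X.src j a = X.tgt j b)
    (h₂ : X.src j c = X.tgt j d) (h₄ : X.src i a = X.tgt i c) (h₅ : X.src i b = X.tgt i d)
    (hij : i < j) :
    X.src j (X.comp i a c h₄) = X.tgt j (X.comp i b d h₅) := by
  have h : X.src i (X.src j a) = X.tgt i (X.src j c) := by
    rw [X.src_src, X.tgt_src_lt i j c hij, min_eq_left hij.le, h₄]
  have h' : X.src i (X.tgt j b) = X.tgt i (X.tgt j d) := by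
    rw [X.src_tgt_lt i j b hij, X.tgt_tgt, min_eq_left hij.le, h₅]
  rw [X.src_comp_gt i j a c h₄ h hij, X.tgt_comp_gt i j b d h₅ h' hij]
  exact comp_congr h₁ h₂ h

noncomputable section

variable {J : Type} [SmallCategory J] (D : J ⥤ OCat)

lemma map_map_eq {i j k : J} (f : i ⟶ j) (g : j ⟶ k) (x : (D.obj i).Cell) :
    (D.map g).map ((D.map f).map x) = (D.map (f ≫ g)).map x := by
  rw [D.map_comp, comp_map]

variable [IsFiltered J]

/-- Two cells of stages are identified when they agree at a later stage. -/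
def stageSetoid : Setoid (Σ j, (D.obj j).Cell) where
  r x y := ∃ (k : J) (f : x.1 ⟶ k) (g : y.1 ⟶ k), (D.map f).map x.2 = (D.map g).map y.2
  iseqv :=
    { refl := fun x => ⟨x.1, 𝟙 _, 𝟙 _, rfl⟩
      symm := fun ⟨k, f, g, h⟩ => ⟨k, g, f, h.symm⟩
      trans := fun {x y z} ⟨k, f, g, h⟩ ⟨k', f', g', h'⟩ => by
        obtain ⟨s, u, v, huv⟩ := IsFiltered.span g f'
        refine ⟨s, f ≫ u, g' ≫ v, ?_⟩
        rw [← map_map_eq, h, map_map_eq, huv, ← map_map_eq, h', map_map_eq] }

/-- The cells of a filtered colimit. -/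
def FColimCell : Type := Quotient (stageSetoid D)

variable {D}

/-- The class of a cell of a stage. -/
def fmk (j : J) (x : (D.obj j).Cell) : FColimCell D := Quotient.mk _ ⟨j, x⟩

lemma fmk_map {i j : J} (f : i ⟶ j) (x : (D.obj i).Cell) :
    fmk j ((D.map f).map x) = fmk i x :=
  Quotient.sound ⟨j, 𝟙 j, f, by rw [D.map_id]; rfl⟩

lemma fmk_surj (a : FColimCell D) : ∃ j x, fmk j x = a := by
  obtain ⟨⟨j, x⟩, h⟩ := Quotient.exists_rep a
  exact ⟨j, x, h⟩

lemma exists_stage₂ (a b : FColimCell D) : ∃ k x y, fmk k x = a ∧ fmk k y = b := by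
  obtain ⟨i, x, rfl⟩ := fmk_surj a
  obtain ⟨j, y, rfl⟩ := fmk_surj b
  exact ⟨_, (D.map (IsFiltered.leftToMax i j)).map x, (D.map (IsFiltered.rightToMax i j)).map y,
    fmk_map _ _, fmk_map _ _⟩

lemma exists_later {k : J} {x y : (D.obj k).Cell} (h : fmk k x = fmk k y) :
    ∃ (l : J) (f : k ⟶ l), (D.map f).map x = (D.map f).map y := by
  obtain ⟨l, f, g, hfg⟩ := Quotient.exact h
  refine ⟨_, f ≫ IsFiltered.coeqHom f g, ?_⟩
  rw [← map_map_eq, hfg, map_map_eq, ← IsFiltered.coeq_condition]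

/-- The source. -/
def fsrc (i : ℕ) : FColimCell D → FColimCell D :=
  Quotient.map (fun x => ⟨x.1, (D.obj x.1).src i x.2⟩) fun x y ⟨k, f, g, h⟩ =>
    ⟨k, f, g, by dsimp only; rw [(D.map f).map_src, (D.map g).map_src, h]⟩

/-- The target. -/
def ftgt (i : ℕ) : FColimCell D → FColimCell D :=
  Quotient.map (fun x => ⟨x.1, (D.obj x.1).tgt i x.2⟩) fun x y ⟨k, f, g, h⟩ =>
    ⟨k, f, g, by dsimp only; rw [(D.map f).map_tgt, (D.map g).map_tgt, h]⟩

@[simp] lemma fsrc_fmk (i : ℕ) (j : J) (x : (D.obj j).Cell) :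
    fsrc i (fmk j x) = fmk j ((D.obj j).src i x) := rfl

@[simp] lemma ftgt_fmk (i : ℕ) (j : J) (x : (D.obj j).Cell) :
    ftgt i (fmk j x) = fmk j ((D.obj j).tgt i x) := rfl

lemma exists_later_composable {i : ℕ} {k : J} {x y : (D.obj k).Cell}
    (h : fsrc i (fmk k x) = ftgt i (fmk k y)) :
    ∃ (l : J) (f : k ⟶ l), (D.obj l).src i ((D.map f).map x) = (D.obj l).tgt i ((D.map f).map y) := by
  obtain ⟨l, f, hf⟩ := exists_later h
  exact ⟨l, f, by rw [← (D.map f).map_src, ← (D.map f).map_tgt, hf]⟩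

lemma exists_composable {i : ℕ} {a b : FColimCell D} (h : fsrc i a = ftgt i b) :
    ∃ k x y, fmk k x = a ∧ fmk k y = b ∧ (D.obj k).src i x = (D.obj k).tgt i y := by
  obtain ⟨k, x, y, rfl, rfl⟩ := exists_stage₂ a b
  obtain ⟨l, f, hf⟩ := exists_later_composable h
  exact ⟨l, _, _, fmk_map f x, fmk_map f y, hf⟩

/-- The composition. -/
def fcomp (i : ℕ) (a b : FColimCell D) (h : fsrc i a = ftgt i b) : FColimCell D :=
  fmk (exists_composable h).choose
    ((D.obj _).comp i _ _ (exists_composable h).choose_spec.choose_spec.choose_spec.2.2)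

lemma fcomp_eq {i : ℕ} {a b : FColimCell D} (h : fsrc i a = ftgt i b) (k : J)
    (x y : (D.obj k).Cell) (hx : fmk k x = a) (hy : fmk k y = b)
    (hxy : (D.obj k).src i x = (D.obj k).tgt i y) :
    fcomp i a b h = fmk k ((D.obj k).comp i x y hxy) := by
  have spec := (exists_composable h).choose_spec.choose_spec.choose_spec
  have main : ∀ (k' : J) (x' y' : (D.obj k').Cell) (_ : fmk k' x' = a) (_ : fmk k' y' = b)
      (h' : (D.obj k').src i x' = (D.obj k').tgt i y'),
      fmk k' ((D.obj k').comp i x' y' h') = fmk k ((D.obj k).comp i x y hxy) := by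
    intro k' x' y' hx' hy' h'
    have e₁ : fmk _ ((D.map (IsFiltered.leftToMax k' k)).map x') =
        fmk _ ((D.map (IsFiltered.rightToMax k' k)).map x) := by
      rw [fmk_map, fmk_map, hx', hx]
    obtain ⟨l, f, hf⟩ := exists_later e₁
    have e₂ : fmk l ((D.map (IsFiltered.leftToMax k' k ≫ f)).map y') =
        fmk l ((D.map (IsFiltered.rightToMax k' k ≫ f)).map y) := by
      rw [fmk_map, fmk_map, hy', hy]
    obtain ⟨m, g, hg⟩ := exists_later e₂
    rw [map_map_eq, map_map_eq] at hg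
    rw [map_map_eq, map_map_eq] at hf
    have hxm : (D.map ((IsFiltered.leftToMax k' k ≫ f) ≫ g)).map x' =
        (D.map ((IsFiltered.rightToMax k' k ≫ f) ≫ g)).map x := by
      rw [← map_map_eq, hf, map_map_eq]
    rw [← fmk_map ((IsFiltered.leftToMax k' k ≫ f) ≫ g) ((D.obj k').comp i x' y' h'),
      ← fmk_map ((IsFiltered.rightToMax k' k ≫ f) ≫ g) ((D.obj k).comp i x y hxy),
      Hom.map_comp _ i x' y' h' (Hom.composable _ h'),
      Hom.map_comp _ i x y hxy (Hom.composable _ hxy)]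
    exact congrArg (fmk m) (comp_congr hxm hg _)
  exact main _ _ _ spec.1 spec.2.1 spec.2.2

lemma fcomp_fmk {i : ℕ} {k : J} {x y : (D.obj k).Cell}
    (hxy : (D.obj k).src i x = (D.obj k).tgt i y) (h) :
    fcomp i (fmk k x) (fmk k y) h = fmk k ((D.obj k).comp i x y hxy) :=
  fcomp_eq h k x y rfl rfl hxy

lemma fcomp_congr {i : ℕ} {a a' b b' : FColimCell D} (ha : a = a') (hb : b = b')
    (h : fsrc i a = ftgt i b) (h') : fcomp i a b h = fcomp i a' b' h' := by
  subst ha; subst hb; rfl

variable (D)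

/-- The filtered colimit. -/
def fcolimObj : OCat where
  Cell := FColimCell D
  src := fsrc
  tgt := ftgt
  comp := fcomp
  src_src i j a := by obtain ⟨k, x, rfl⟩ := fmk_surj a; simp [src_src]
  tgt_tgt i j a := by obtain ⟨k, x, rfl⟩ := fmk_surj a; simp [tgt_tgt]
  src_tgt_lt i j a h := by obtain ⟨k, x, rfl⟩ := fmk_surj a; simp [src_tgt_lt _ _ _ _ h]
  src_tgt_ge i j a h := by obtain ⟨k, x, rfl⟩ := fmk_surj a; simp [src_tgt_ge _ _ _ _ h]
  tgt_src_lt i j a h := by obtain ⟨k, x, rfl⟩ := fmk_surj a; simp [tgt_src_lt _ _ _ _ h]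
  tgt_src_ge i j a h := by obtain ⟨k, x, rfl⟩ := fmk_surj a; simp [tgt_src_ge _ _ _ _ h]
  exists_dim a := by
    obtain ⟨k, x, rfl⟩ := fmk_surj a
    obtain ⟨d, hd⟩ := (D.obj k).exists_dim x
    exact ⟨d, by rw [fsrc_fmk, hd]⟩
  comp_unit_right i a h := by
    obtain ⟨k, x, rfl⟩ := fmk_surj a
    rw [fcomp_eq h k x _ rfl rfl (((D.obj k).tgt_src_ge i i x le_rfl).symm),
      (D.obj k).comp_unit_right]
  comp_unit_left i a h := by
    obtain ⟨k, x, rfl⟩ := fmk_surj a
    rw [fcomp_eq h k _ x rfl rfl ((D.obj k).src_tgt_ge i i x le_rfl), (D.obj k).comp_unit_left]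
  src_comp_le i j a b h hj := by
    obtain ⟨k, x, y, rfl, rfl, hxy⟩ := exists_composable h
    rw [fcomp_fmk hxy, fsrc_fmk, fsrc_fmk, (D.obj k).src_comp_le i j _ _ _ hj]
  tgt_comp_le i j a b h hj := by
    obtain ⟨k, x, y, rfl, rfl, hxy⟩ := exists_composable h
    rw [fcomp_fmk hxy, ftgt_fmk, ftgt_fmk, (D.obj k).tgt_comp_le i j _ _ _ hj]
  src_comp_gt i j a b h h' hj := by
    obtain ⟨k, x, y, rfl, rfl, hxy⟩ := exists_composable h
    have h'' : (D.obj k).src i ((D.obj k).src j x) = (D.obj k).tgt i ((D.obj k).src j y) := by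
      rw [(D.obj k).src_src, (D.obj k).tgt_src_lt i j y hj, min_eq_left hj.le, hxy]
    rw [fcomp_fmk hxy, fsrc_fmk, (D.obj k).src_comp_gt i j x y hxy h'' hj]
    exact (fcomp_eq h' k _ _ rfl rfl h'').symm
  tgt_comp_gt i j a b h h' hj := by
    obtain ⟨k, x, y, rfl, rfl, hxy⟩ := exists_composable h
    have h'' : (D.obj k).src i ((D.obj k).tgt j x) = (D.obj k).tgt i ((D.obj k).tgt j y) := by
      rw [(D.obj k).src_tgt_lt i j x hj, (D.obj k).tgt_tgt, min_eq_left hj.le, hxy]
    rw [fcomp_fmk hxy, ftgt_fmk, (D.obj k).tgt_comp_gt i j x y hxy h'' hj]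
    exact (fcomp_eq h' k _ _ rfl rfl h'').symm
  assoc i a b c h₁ h₂ h₃ h₄ := by
    obtain ⟨k₀, x₀, y₀, rfl, rfl, hxy₀⟩ := exists_composable h₁
    obtain ⟨j, z₀, rfl⟩ := fmk_surj c
    rw [← fmk_map (IsFiltered.leftToMax k₀ j) y₀, ← fmk_map (IsFiltered.rightToMax k₀ j) z₀] at h₃
    obtain ⟨l, f, hf⟩ := exists_later_composable h₃
    rw [map_map_eq, map_map_eq] at hf
    generalize hu : IsFiltered.leftToMax k₀ j ≫ f = u at hf
    generalize hv : IsFiltered.rightToMax k₀ j ≫ f = v at hf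
    have hxy := (D.map u).composable hxy₀
    have hl := assoc_composable₂ hxy hf
    have hr := assoc_composable₄ hxy hf
    rw [fcomp_eq h₂ l _ _ (fcomp_eq h₁ l _ _ (fmk_map u x₀) (fmk_map u y₀) hxy).symm
        (fmk_map v z₀) hl,
      fcomp_eq h₄ l _ _ (fmk_map u x₀)
        (fcomp_eq _ l _ _ (fmk_map u y₀) (fmk_map v z₀) hf).symm hr,
      (D.obj l).assoc i _ _ _ hxy hl hf hr]
  interchange i j a b c d h₁ h₂ h₃ h₄ h₅ h₆ hij := by
    obtain ⟨p, a₀, b₀, rfl, rfl, hab₀⟩ := exists_composable h₁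
    obtain ⟨q, c₀, d₀, rfl, rfl, hcd₀⟩ := exists_composable h₂
    rw [← fmk_map (IsFiltered.leftToMax p q) a₀, ← fmk_map (IsFiltered.rightToMax p q) c₀] at h₄
    obtain ⟨m, f, hf⟩ := exists_later_composable h₄
    rw [map_map_eq, map_map_eq] at hf
    generalize IsFiltered.leftToMax p q ≫ f = u at hf
    generalize IsFiltered.rightToMax p q ≫ f = v at hf
    rw [← fmk_map u b₀, ← fmk_map v d₀] at h₅
    obtain ⟨l, g, hg⟩ := exists_later_composable h₅
    have hac := (D.map g).composable hf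
    rw [map_map_eq, map_map_eq] at hg hac
    generalize u ≫ g = u' at hg hac
    generalize v ≫ g = v' at hg hac
    have hab := (D.map u').composable hab₀
    have hcd := (D.map v').composable hcd₀
    have hl := interchange_composable₃ hab hcd hg hij
    have hr := interchange_composable₆ hab hcd hac hg hij
    rw [fcomp_eq h₃ l _ _ (fcomp_eq h₁ l _ _ (fmk_map u' a₀) (fmk_map u' b₀) hab).symm
        (fcomp_eq h₂ l _ _ (fmk_map v' c₀) (fmk_map v' d₀) hcd).symm hl,
      fcomp_eq h₆ l _ _ (fcomp_eq _ l _ _ (fmk_map u' a₀) (fmk_map v' c₀) hac).symm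
        (fcomp_eq _ l _ _ (fmk_map u' b₀) (fmk_map v' d₀) hg).symm hr,
      (D.obj l).interchange i j _ _ _ _ hab hcd hl hac hg hr hij]

/-- The filtered colimit cocone. -/
def fcolimCocone : Cocone D where
  pt := fcolimObj D
  ι :=
    { app := fun j =>
        { map := fmk j
          map_src := fun _ _ => rfl
          map_tgt := fun _ _ => rfl
          map_comp := fun i a b h h' => (fcomp_eq (i := i) (a := fmk j a) (b := fmk j b) h' j a b rfl rfl h).symm }
      naturality := fun i j f => hom_ext fun x => fmk_map f x }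

/-- The descent of a cocone to the filtered colimit. -/
def fcolimDesc (s : Cocone D) : fcolimObj D ⟶ s.pt where
  map := Quotient.lift (fun x => (s.ι.app x.1).map x.2) fun x y ⟨k, f, g, h⟩ => by
    rw [← s.w f, ← s.w g, comp_map, comp_map, h]
  map_src i a := by
    obtain ⟨k, x, rfl⟩ := fmk_surj a
    exact (s.ι.app k).map_src i x
  map_tgt i a := by
    obtain ⟨k, x, rfl⟩ := fmk_surj a
    exact (s.ι.app k).map_tgt i x
  map_comp i a b h h' := by
    obtain ⟨k, x, y, rfl, rfl, hxy⟩ := exists_composable h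
    refine (congrArg (Quotient.lift _ _)
      (fcomp_eq (i := i) (a := fmk k x) (b := fmk k y) h k x y rfl rfl hxy)).trans ?_
    exact (s.ι.app k).map_comp i x y hxy _

/-- The filtered colimit cocone is a colimit. -/
def fcolimIsColimit : IsColimit (fcolimCocone D) where
  desc := fcolimDesc D
  fac s j := rfl
  uniq s m hm := hom_ext fun a => by
    obtain ⟨k, x, rfl⟩ := fmk_surj a
    exact congrArg (fun g => Hom.map g x) (hm k)

variable {D} {c : Cocone D} (hc : IsColimit c)

include hc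

/-- Every cell of a filtered colimit comes from a stage. -/
theorem filtered_jointly_surjective (a : c.pt.Cell) : ∃ j x, (c.ι.app j).map x = a := by
  let e := (fcolimIsColimit D).coconePointUniqueUpToIso hc
  obtain ⟨j, x, hx⟩ := fmk_surj (e.inv.map a)
  refine ⟨j, x, ?_⟩
  rw [← iso_hom_map_inv e a, ← hx]
  exact (congrArg (fun g => Hom.map g x)
    ((fcolimIsColimit D).comp_coconePointUniqueUpToIso_hom hc j)).symm

/-- Two cells of a stage with the same image in a filtered colimit agree at a later stage. -/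
theorem filtered_exists_eq {j : J} {x y : (D.obj j).Cell}
    (h : (c.ι.app j).map x = (c.ι.app j).map y) :
    ∃ (k : J) (f : j ⟶ k), (D.map f).map x = (D.map f).map y := by
  let e := (fcolimIsColimit D).coconePointUniqueUpToIso hc
  have key : ∀ z, e.hom.map (fmk j z) = (c.ι.app j).map z := fun z =>
    congrArg (fun g => Hom.map g z)
      ((fcolimIsColimit D).comp_coconePointUniqueUpToIso_hom hc j)
  refine exists_later ?_
  rw [← iso_inv_map_hom e (fmk j x), ← iso_inv_map_hom e (fmk j y), key, key, h]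

omit hc

end

end OCat

namespace NCat

variable (n : ℕ∞)

instance : PreservesFilteredColimits (NCat.incl n) where
  preserves_filtered_colimits _ _ _ := inferInstance

variable {n} {J : Type} [SmallCategory J] [IsFiltered J] {D : J ⥤ NCat n} {c : Cocone D}

/-- Every cell of a filtered colimit of n-categories comes from a stage. -/
theorem filtered_jointly_surjective (hc : IsColimit c) (a : c.pt.obj.Cell) :
    ∃ j x, ((NCat.incl n).map (c.ι.app j)).map x = a :=
  OCat.filtered_jointly_surjective (isColimitOfPreserves (NCat.incl n) hc) a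

/-- Two cells of a stage with the same image in a filtered colimit agree at a later stage. -/
theorem filtered_exists_eq (hc : IsColimit c) {j : J} {x y : (D.obj j).obj.Cell}
    (h : ((NCat.incl n).map (c.ι.app j)).map x = ((NCat.incl n).map (c.ι.app j)).map y) :
    ∃ (k : J) (f : j ⟶ k),
      ((NCat.incl n).map (D.map f)).map x = ((NCat.incl n).map (D.map f)).map y :=
  OCat.filtered_exists_eq (isColimitOfPreserves (NCat.incl n) hc) h

end NCat

end Vale.Agent.P213
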