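import Mathlib.CategoryTheory.Limits.Types.Filtered
import Mathlib.Data.Finite.Prod
import Vale.Agent.P213.Colim.Filtered
import Vale.Agent.P213.Cyl.Trunc

/-!
# Steiner complexes give finitely presentable ω-categories

`Hom(ν K, -)` preserves filtered colimits for a Steiner complex `K`, granted Steiner's freeness
theorem (`FreeUniqueGoal`, `FreeExtendGoal`).
-/

open CategoryTheory CategoryTheory.Limits Opposite

namespace Vale.Agent.P213

namespace OCat

variable {J : Type} [SmallCategory J] [IsFiltered J] {D : J ⥤ OCat} {c : Cocone D}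

/-- Finitely many equations holding in a filtered colimit hold at a later stage. -/
theorem filtered_exists_eq_finite (hc : IsColimit c) {ι : Type} [Finite ι] {j : J}
    (x y : ι → (D.obj j).Cell) (h : ∀ i, (c.ι.app j).map (x i) = (c.ι.app j).map (y i)) :
    ∃ (k : J) (f : j ⟶ k), ∀ i, (D.map f).map (x i) = (D.map f).map (y i) := by
  classical
  have := Fintype.ofFinite ι
  suffices hs : ∀ s : Finset ι, ∃ (k : J) (f : j ⟶ k),
      ∀ i ∈ s, (D.map f).map (x i) = (D.map f).map (y i) by
    obtain ⟨k, f, hf⟩ := hs Finset.univ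
    exact ⟨k, f, fun i => hf i (Finset.mem_univ i)⟩
  intro s
  induction s using Finset.induction_on with
  | empty => exact ⟨j, 𝟙 j, fun i hi => absurd hi (Finset.notMem_empty i)⟩
  | insert a s _ ih =>
    obtain ⟨k, f, hf⟩ := ih
    have he : (c.ι.app k).map ((D.map f).map (x a)) = (c.ι.app k).map ((D.map f).map (y a)) := by
      rw [← comp_map, ← comp_map, c.w f, h a]
    obtain ⟨l, g, hg⟩ := filtered_exists_eq hc he
    refine ⟨l, f ≫ g, fun i hi => ?_⟩
    rw [D.map_comp, comp_map, comp_map]
    rcases Finset.mem_insert.1 hi with rfl | hi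
    · exact hg
    · rw [hf i hi]

/-- Finitely many cells of a filtered colimit come from a common stage. -/
theorem filtered_exists_lift_finite (hc : IsColimit c) {ι : Type} [Finite ι] (j : J)
    (z : ι → c.pt.Cell) :
    ∃ (k : J) (_ : j ⟶ k) (x : ι → (D.obj k).Cell), ∀ i, (c.ι.app k).map (x i) = z i := by
  classical
  have := Fintype.ofFinite ι
  suffices hs : ∀ s : Finset ι, ∃ (k : J) (_ : j ⟶ k),
      ∀ i ∈ s, ∃ x, (c.ι.app k).map x = z i by
    obtain ⟨k, f, hf⟩ := hs Finset.univ
    choose x hx using fun i => hf i (Finset.mem_univ i)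
    exact ⟨k, f, x, hx⟩
  intro s
  induction s using Finset.induction_on with
  | empty => exact ⟨j, 𝟙 j, fun i hi => absurd hi (Finset.notMem_empty i)⟩
  | insert a s _ ih =>
    obtain ⟨k, f, hf⟩ := ih
    obtain ⟨l, x, hx⟩ := filtered_jointly_surjective hc (z a)
    refine ⟨IsFiltered.max k l, f ≫ IsFiltered.leftToMax k l, fun i hi => ?_⟩
    rcases Finset.mem_insert.1 hi with rfl | hi
    · exact ⟨(D.map (IsFiltered.rightToMax k l)).map x, by rw [← comp_map, c.w, hx]⟩
    · obtain ⟨y, hy⟩ := hf i hi
      exact ⟨(D.map (IsFiltered.leftToMax k l)).map y, by rw [← comp_map, c.w, hy]⟩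

end OCat

namespace ADC

variable {K : ADC}

/-- The level of an atom determines the level below it. -/
lemma eq_of_sub_eq_of_inf_eq_zero {ι : Type} {p q p' q' : ι →₀ ℤ} (h : p ⊓ q = 0)
    (h' : p' ⊓ q' = 0) (hd : p - q = p' - q') : p = p' ∧ q = q' := by
  have key : ∀ z, p z = p' z ∧ q z = q' z := fun z => by
    have e := DFunLike.congr_fun h z
    have e' := DFunLike.congr_fun h' z
    have ed := DFunLike.congr_fun hd z
    simp only [Finsupp.inf_apply, Finsupp.coe_zero, Pi.zero_apply, Finsupp.coe_sub,
      Pi.sub_apply] at e e' ed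
    omega
  exact ⟨Finsupp.ext fun z => (key z).1, Finsupp.ext fun z => (key z).2⟩

/-- Atoms are unique. -/
theorem IsAtom.unique {k : ℕ} {b : K.B k} {a a' : Table K} (h : K.IsAtom b a)
    (h' : K.IsAtom b a') : a = a' := by
  suffices hd : ∀ m l s, l + m = k → a.x l s = a'.x l s by
    refine Table.ext (funext fun l => funext fun s => ?_)
    rcases le_or_gt l k with hl | hl
    · exact hd (k - l) l s (by omega)
    · rw [h.above l s hl, h'.above l s hl]
  intro m
  induction m with
  | zero =>
    intro l s hl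
    rw [Nat.add_zero] at hl
    subst hl
    rw [h.top, h'.top]
  | succ m ih =>
    intro l s hl
    have e : K.d l (a.x (l + 1) s) = K.d l (a'.x (l + 1) s) := by rw [ih (l + 1) s (by omega)]
    rw [a.bdry, a'.bdry] at e
    obtain ⟨et, ef⟩ := eq_of_sub_eq_of_inf_eq_zero (h.min l (by omega)) (h'.min l (by omega)) e
    cases s
    · exact ef
    · exact et

lemma IsSteiner.finite_level (hK : K.IsSteiner) (k : ℕ) : Finite (K.B k) :=
  have := hK.finite
  Finite.of_injective (fun b => (⟨k, b⟩ : Σ k, K.B k)) sigma_mk_injective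

lemma Table.face_self {k : ℕ} {b : K.B k} {a : Table K} (h : K.IsAtom b a) (e : Bool) :
    a.face k e = a := by
  refine Table.ext (funext fun l => funext fun s => ?_)
  rw [Table.face_x]
  split_ifs with h1 h2
  · rfl
  · subst h2
    rw [h.top, h.top]
  · rw [h.above l s (by omega)]

lemma Table.face_above (a : Table K) (k : ℕ) (e : Bool) (l : ℕ) (s : Bool) (h : k < l) :
    (a.face k e).x l s = 0 := by
  rw [Table.face_x, if_neg (by omega), if_neg (by omega)]

section

variable {J : Type} [SmallCategory J] [IsFiltered J] {D : J ⥤ OCat} {c : Cocone D}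

/-- Two maps from `ν K` to a stage which agree in a filtered colimit agree at a later stage. -/
theorem nu_hom_eq_later (hU : FreeUniqueGoal) (hK : K.IsSteiner) (hc : IsColimit c) {j : J}
    (F G : nu K ⟶ D.obj j) (h : F ≫ c.ι.app j = G ≫ c.ι.app j) :
    ∃ (k : J) (f : j ⟶ k), F ≫ D.map f = G ≫ D.map f := by
  have := hK.finite
  choose a ha using fun x : Σ k, K.B k => hK.unital x.1 x.2
  obtain ⟨k, f, hf⟩ := OCat.filtered_exists_eq_finite hc (fun x => F.map (a x))
    (fun x => G.map (a x)) fun x => congrArg (fun φ => OCat.Hom.map φ (a x)) h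
  refine ⟨k, f, hU K hK _ _ _ fun m b t ht => ?_⟩
  rw [ht.unique (ha ⟨m, b⟩)]
  exact hf ⟨m, b⟩

/-- A map from `ν` of a skeleton to a filtered colimit comes from a stage. -/
theorem exists_lift_trunc (hU : FreeUniqueGoal) (hE : FreeExtendGoal) (hK : K.IsSteiner)
    (hc : IsColimit c) (F : nu K ⟶ c.pt) (k : ℕ) :
    ∃ (j : J) (G : nu (K.trunc k) ⟶ D.obj j),
      G ≫ c.ι.app j = nuFunctor.map (K.truncIncl k) ≫ F := by
  induction k with
  | zero =>
    have := hK.finite_level 0
    have : Nonempty J := IsFiltered.nonempty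
    choose a ha using hK.unital 0
    obtain ⟨j, -, x, hx⟩ := OCat.filtered_exists_lift_finite hc (Classical.arbitrary J)
      fun b : K.B 0 => F.map (a b)
    obtain ⟨G, hG⟩ := exists_hom_trunc_zero hK (fun b => (D.obj j).src 0 (x b))
      fun b => OCat.src_src_self 0 _
    refine ⟨j, G, hom_ext_trunc hU hK fun l b hb t ht => ?_⟩
    obtain rfl : l = 0 := by omega
    show (c.ι.app j).map (G.map t) = F.map (Table.map (K.truncIncl 0) t)
    have hGt : G.map t = (D.obj j).src 0 (x b) := by
      rw [← Table.toTrunc_map t]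
      exact hG b _ _ ht
    rw [hGt, (c.ι.app j).map_src]
    erw [hx b]
    rw [ht.unique (ha b)]
    exact (F.map_src 0 (a b)).symm.trans (congrArg F.map (Table.face_self (ha b) false))
  | succ k ih =>
    obtain ⟨j₀, G₀, hG₀⟩ := ih
    have := hK.finite_level (k + 1)
    choose a ha using hK.unital (k + 1)
    obtain ⟨j₁, u, x, hx⟩ := OCat.filtered_exists_lift_finite hc j₀
      fun b : K.B (k + 1) => F.map (a b)
    have hι : ∀ (t : Table (K.trunc k)) (l : J) (g : j₀ ⟶ l),
        (c.ι.app l).map ((D.map g).map (G₀.map t)) = F.map (Table.map (K.truncIncl k) t) := by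
      intro t l g
      rw [← OCat.comp_map, c.w g]
      exact congrArg (fun φ => OCat.Hom.map φ t) hG₀
    let y : K.B (k + 1) → (D.obj j₁).Cell := fun b => (D.obj j₁).src (k + 1) (x b)
    have hy : ∀ b, (c.ι.app j₁).map (y b) = F.map (a b) := fun b =>
      ((c.ι.app j₁).map_src (k + 1) (x b)).trans ((congrArg _ (hx b)).trans
        ((F.map_src (k + 1) (a b)).symm.trans (congrArg F.map (Table.face_self (ha b) false))))
    obtain ⟨j₂, v, hv⟩ := OCat.filtered_exists_eq_finite hc
      (fun p : K.B (k + 1) × Bool =>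
        bif p.2 then (D.obj j₁).tgt k (y p.1) else (D.obj j₁).src k (y p.1))
      (fun p : K.B (k + 1) × Bool => (D.map u).map
        (G₀.map (((a p.1).face k p.2).toTrunc ((a p.1).face_above k p.2))))
      (fun p => by
        obtain ⟨b, e⟩ := p
        rw [hι, Table.map_toTrunc]
        cases e
        · exact ((c.ι.app j₁).map_src k _).trans
            ((congrArg _ (hy b)).trans (F.map_src k (a b)).symm)
        · exact ((c.ι.app j₁).map_tgt k _).trans
            ((congrArg _ (hy b)).trans (F.map_tgt k (a b)).symm))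
    have hG₁ : ∀ t : Table (K.trunc k), OCat.Hom.map (G₀ ≫ D.map (u ≫ v)) t =
        (D.map v).map ((D.map u).map (G₀.map t)) := fun t => by
      rw [D.map_comp]; rfl
    obtain ⟨G, hGr, hGφ⟩ := exists_extend hE hK (G₀ ≫ D.map (u ≫ v))
      (fun b => (D.map v).map (y b))
      (fun b => OCat.map_dim (D.map v) (OCat.src_src_self _ _))
      (fun b t hs ht hbt => by
        obtain rfl := hbt.unique (ha b)
        constructor
        · exact ((D.map v).map_src k (y b)).symm.trans ((hv (b, false)).trans (hG₁ _).symm)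
        · exact ((D.map v).map_tgt k (y b)).symm.trans ((hv (b, true)).trans (hG₁ _).symm))
    refine ⟨j₂, G, hom_ext_trunc hU hK fun l b hl t ht => ?_⟩
    show (c.ι.app j₂).map (G.map t) = F.map (Table.map (K.truncIncl (k + 1)) t)
    by_cases hlk : l = k + 1
    · subst hlk
      have hGt : G.map t = (D.map v).map (y b) := by
        rw [← Table.toTrunc_map t]
        exact hGφ b _ _ ht
      rw [hGt, ← OCat.comp_map, c.w v, hy b, ht.unique (ha b)]
    · have hl' : l ≤ k := by omega
      obtain ⟨t₀, rfl⟩ : ∃ t₀ : Table (K.trunc k), t₀.raise = t :=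
        ⟨_, Table.map_truncIncl_injective ((Table.map_raise
          ((Table.map (K.truncIncl (k + 1)) t).toTrunc fun i s hi =>
            ht.above i s (by omega))).trans (Table.map_toTrunc _ _))⟩
      have e : G.map t₀.raise = (D.map (u ≫ v)).map (G₀.map t₀) := by
        have h2 := congrArg (fun φ : nu (K.trunc k) ⟶ D.obj j₂ => OCat.Hom.map φ t₀) hGr
        exact h2
      rw [Table.map_raise]
      exact ((congrArg (c.ι.app j₂).map e).trans (hι t₀ j₂ (u ≫ v)))

/-- A map from `ν K` to a filtered colimit comes from a stage. -/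
theorem nu_hom_exists_lift (hU : FreeUniqueGoal) (hE : FreeExtendGoal) (hK : K.IsSteiner)
    (hc : IsColimit c) (F : nu K ⟶ c.pt) :
    ∃ (j : J) (G : nu K ⟶ D.obj j), G ≫ c.ι.app j = F := by
  obtain ⟨N, hN⟩ := exists_trunc_inverse hK
  obtain ⟨j, G, hG⟩ := exists_lift_trunc hU hE hK hc F N
  refine ⟨j, nuFunctor.map (K.truncProj N hN) ≫ G, OCat.hom_ext fun a => ?_⟩
  refine (congrArg (fun φ => OCat.Hom.map φ (Table.map (K.truncProj N hN) a)) hG).trans ?_
  exact congrArg F.map
    (congrArg (fun φ : K ⟶ K => Table.map φ a) (truncProj_comp_incl hN))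

end

/-- `Hom(ν K, -)` preserves filtered colimits for a Steiner complex `K`. -/
theorem nu_preservesFilteredColimits (hU : FreeUniqueGoal) (hE : FreeExtendGoal)
    (hK : K.IsSteiner) :
    PreservesFilteredColimits (coyoneda.obj (op (nu K))) where
  preserves_filtered_colimits J _ _ :=
    { preservesColimit := fun {D} => ⟨fun {c} hc => ⟨Types.FilteredColimit.isColimitOf' _ _
        (fun F => by
          obtain ⟨j, G, hG⟩ := nu_hom_exists_lift hU hE hK hc F
          exact ⟨j, G, hG.symm⟩)
        (fun i F G h => by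
          obtain ⟨k, f, hf⟩ := nu_hom_eq_later hU hK hc F G h
          exact ⟨k, f, hf⟩)⟩⟩ }

/-- The same for n-categories. -/
theorem nu_preservesFilteredColimits_nCat (hU : FreeUniqueGoal) (hE : FreeExtendGoal)
    (hK : K.IsSteiner) (n : ℕ∞) :
    PreservesFilteredColimits (NCat.incl n ⋙ coyoneda.obj (op (nu K))) where
  preserves_filtered_colimits J _ _ :=
    have := (nu_preservesFilteredColimits hU hE hK).preserves_filtered_colimits J
    inferInstance

end ADC

end Vale.Agent.P213
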