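import Mathlib.CategoryTheory.Limits.FullSubcategory
import Mathlib.CategoryTheory.Limits.HasLimits
import Vale.Agent.P213.Colim.Lemmas

/-!
# Limits of strict ω-categories and n-categories
-/

open CategoryTheory CategoryTheory.Limits

namespace Vale.Agent.P213

namespace OCat

variable {J : Type} [SmallCategory J]

/-- The cells of a limit: compatible families of bounded dimension. -/
def LimitCell (D : J ⥤ OCat) : Type :=
  {x : ∀ j, (D.obj j).Cell //
    (∀ {i j : J} (f : i ⟶ j), (D.map f).map (x i) = x j) ∧
      ∃ k, ∀ j, (D.obj j).src k (x j) = x j}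

lemma LimitCell.ext {D : J ⥤ OCat} {x y : LimitCell D} (h : ∀ j, x.1 j = y.1 j) : x = y :=
  Subtype.ext (funext h)

/-- The limit of a diagram of strict ω-categories. -/
def limitObj (D : J ⥤ OCat) : OCat where
  Cell := LimitCell D
  src i x := ⟨fun j => (D.obj j).src i (x.1 j),
    fun f => by rw [(D.map f).map_src, x.2.1 f],
    ⟨i, fun j => src_src_self i _⟩⟩
  tgt i x := ⟨fun j => (D.obj j).tgt i (x.1 j),
    fun f => by rw [(D.map f).map_tgt, x.2.1 f],
    ⟨i, fun j => src_tgt_self i _⟩⟩
  comp i a b h := ⟨fun j => (D.obj j).comp i (a.1 j) (b.1 j) (congrArg (fun z => z.1 j) h),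
    fun {p q} f => by
      rw [(D.map f).map_comp i _ _ _ ((D.map f).composable (congrArg (fun z => z.1 p) h))]
      exact comp_congr (a.2.1 f) (b.2.1 f) _,
    by
      obtain ⟨_, k, hk⟩ := a.2
      obtain ⟨_, l, hl⟩ := b.2
      exact ⟨max (max k l) (i + 1), fun j => src_comp_eq_self (by omega)
        (src_eq_of_le (hk j) (by omega)) (src_eq_of_le (hl j) (by omega))⟩⟩
  src_src i j a := LimitCell.ext fun p => (D.obj p).src_src i j _
  tgt_tgt i j a := LimitCell.ext fun p => (D.obj p).tgt_tgt i j _
  src_tgt_lt i j a h := LimitCell.ext fun p => (D.obj p).src_tgt_lt i j _ h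
  src_tgt_ge i j a h := LimitCell.ext fun p => (D.obj p).src_tgt_ge i j _ h
  tgt_src_lt i j a h := LimitCell.ext fun p => (D.obj p).tgt_src_lt i j _ h
  tgt_src_ge i j a h := LimitCell.ext fun p => (D.obj p).tgt_src_ge i j _ h
  exists_dim a := by
    obtain ⟨_, k, hk⟩ := a.2
    exact ⟨k, LimitCell.ext hk⟩
  comp_unit_right i a h := LimitCell.ext fun p => (D.obj p).comp_unit_right i _ _
  comp_unit_left i a h := LimitCell.ext fun p => (D.obj p).comp_unit_left i _ _
  src_comp_le i j a b h hj := LimitCell.ext fun p => (D.obj p).src_comp_le i j _ _ _ hj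
  tgt_comp_le i j a b h hj := LimitCell.ext fun p => (D.obj p).tgt_comp_le i j _ _ _ hj
  src_comp_gt i j a b h h' hj := LimitCell.ext fun p => (D.obj p).src_comp_gt i j _ _ _ _ hj
  tgt_comp_gt i j a b h h' hj := LimitCell.ext fun p => (D.obj p).tgt_comp_gt i j _ _ _ _ hj
  assoc i a b c h₁ h₂ h₃ h₄ := LimitCell.ext fun p => (D.obj p).assoc i _ _ _ _ _ _ _
  interchange i j a b c d h₁ h₂ h₃ h₄ h₅ h₆ hij :=
    LimitCell.ext fun p => (D.obj p).interchange i j _ _ _ _ _ _ _ _ _ _ hij

/-- The limit cone. -/
def limitCone (D : J ⥤ OCat) : Cone D where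
  pt := limitObj D
  π :=
    { app := fun j =>
        { map := fun x => x.1 j
          map_src := fun _ _ => rfl
          map_tgt := fun _ _ => rfl
          map_comp := fun _ _ _ _ _ => rfl }
      naturality := fun i j f => hom_ext fun x => (x.2.1 f).symm }

/-- The limit cone is a limit. -/
def limitConeIsLimit (D : J ⥤ OCat) : IsLimit (limitCone D) where
  lift s :=
    { map := fun a => ⟨fun j => (s.π.app j).map a,
        fun {i j} f => by rw [← comp_map, s.w f],
        by
          obtain ⟨k, hk⟩ := s.pt.exists_dim a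
          exact ⟨k, fun j => map_dim (s.π.app j) hk⟩⟩
      map_src := fun i a => LimitCell.ext fun j => (s.π.app j).map_src i a
      map_tgt := fun i a => LimitCell.ext fun j => (s.π.app j).map_tgt i a
      map_comp := fun i a b h h' => LimitCell.ext fun j => (s.π.app j).map_comp i a b h _ }
  fac s j := rfl
  uniq s m hm := hom_ext fun a => LimitCell.ext fun j => congrArg (fun g => Hom.map g a) (hm j)

instance : HasLimitsOfShape J OCat where
  has_limit D := HasLimit.mk ⟨limitCone D, limitConeIsLimit D⟩

instance : HasLimits OCat where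
  has_limits_of_shape _ _ := inferInstance

/-- The projections of a limit are jointly injective on cells. -/
lemma limit_cell_ext {D : J ⥤ OCat} {c : Cone D} (hc : IsLimit c) {x y : c.pt.Cell}
    (h : ∀ j, (c.π.app j).map x = (c.π.app j).map y) : x = y := by
  let e := hc.conePointUniqueUpToIso (limitConeIsLimit D)
  have key : ∀ z j, (e.hom.map z : LimitCell D).1 j = (c.π.app j).map z := fun z j =>
    congrArg (fun g => Hom.map g z)
      (hc.conePointUniqueUpToIso_hom_comp (limitConeIsLimit D) j)
  have h' : e.hom.map x = e.hom.map y := LimitCell.ext fun j => by rw [key, key, h j]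
  rw [← iso_inv_map_hom e x, h', iso_inv_map_hom]

instance (n : ℕ∞) : ObjectProperty.IsClosedUnderLimitsOfShape (DimLE n) J where
  limitsOfShape_le := by
    rintro X ⟨p⟩ k a hk
    refine limit_cell_ext p.isLimit fun j => ?_
    exact ((p.π.app j).map_src k a).trans (p.prop_diag_obj j k _ hk)

end OCat

namespace NCat

variable (n : ℕ∞)

instance : HasLimits (NCat n) where
  has_limits_of_shape _ _ := inferInstance

instance : PreservesLimits (NCat.incl n) where
  preservesLimitsOfShape := inferInstance

example : HasFiniteLimits (NCat n) := inferInstance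

end NCat

end Vale.Agent.P213
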